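import Vale.Agent.P174H.E

/-!
# P174: Howie's conjecture passes to extensions with torsion-free abelian (and iterated) quotients
-/

namespace Vale.Agent.Results.P174.TorsionFreeAbelianExtensions

open HowieExt

/-- Howie's property is invariant under isomorphism. -/
theorem howie_equiv {G G' : Type} [Group G] [Group G'] (e : G ≃* G') (h : Howie G) :
    Howie G' := by
  intro m n w hw
  have h1 : ∀ (u : W G' (Fin n)) (j : Fin n),
      expSum (ev ((Monoid.Coprod.inl : G →* W G (Fin n)).comp e.symm.toMonoidHom)
        (fun k => X k) u) j = expSum u j := by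
    intro u j
    revert u
    apply W_ind
    · intro g
      rw [ev_inl, expSum_inl]
      exact expSum_inl _ _
    · intro k
      rw [ev_X, expSum_X, expSum_X]
    · intro a b ha hb
      rw [map_mul, expSum_mul, expSum_mul, ha, hb]
    · intro a ha
      rw [map_inv, expSum_inv, expSum_inv, ha]
  have h2 : Nonsing (fun i => ev ((Monoid.Coprod.inl : G →* W G (Fin n)).comp
      e.symm.toMonoidHom) (fun k => X k) (w i)) := by
    unfold Nonsing
    simp only [h1]
    exact hw
  obtain ⟨H, _, φ, hφ, x, hx⟩ := h m n _ h2
  refine ⟨H, inferInstance, φ.comp e.symm.toMonoidHom, hφ.comp e.symm.injective, x, ?_⟩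
  intro i
  have h3 := hx i
  rw [ev_comp] at h3
  have h4 : (ev φ x).comp ((Monoid.Coprod.inl : G →* W G (Fin n)).comp e.symm.toMonoidHom)
      = φ.comp e.symm.toMonoidHom := by
    ext g
    exact ev_inl φ x (e.symm g)
  have h5 : (fun k => ev φ x (X k : W G (Fin n))) = x := by
    funext k
    exact ev_X φ x k
  rw [h4, h5] at h3
  exact h3

/-- Let `⊤ = H 0 ≥ H 1 ≥ ... ≥ H k` be subgroups of `G` such that each `H (i+1)` is the kernel of a
homomorphism from `H i` to the additive group of a rational vector space. If every finite
nonsingular system over `H k` is solvable over `H k`, then every finite nonsingular system over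
`G` is solvable over `G`. -/
theorem result :
    (∀ (G V : Type) [Group G] [AddCommGroup V] [Module ℚ V] (π : G →* Multiplicative V),
      Howie π.ker → Howie G) ∧
    (∀ (G : Type) [Group G] (k : ℕ) (H : ℕ → Subgroup G), H 0 = ⊤ →
      (∀ i < k, ∃ (V : Type) (_ : AddCommGroup V) (_ : Module ℚ V)
        (π : H i →* Multiplicative V), ∀ x : H i, π x = 1 ↔ (x : G) ∈ H (i + 1)) →
      (∀ i < k, H (i + 1) ≤ H i) →
      Howie (H k) → Howie G) := by
  refine ⟨fun G V _ _ _ π h => howie_ext π h, ?_⟩
  intro G _ k H h0 hπ hle hk
  have key : ∀ j ≤ k, Howie (H (k - j)) := by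
    intro j
    induction j with
    | zero => intro _; exact hk
    | succ j ih =>
      intro hj
      have h1 := ih (by omega)
      obtain ⟨V, _, _, π, h2⟩ := hπ (k - (j + 1)) (by omega)
      have hi : k - (j + 1) + 1 = k - j := by omega
      have h3 := hle (k - (j + 1)) (by omega)
      rw [hi] at h2 h3
      refine howie_ext π ?_
      refine howie_equiv (G := H (k - j)) ?_ h1
      exact
        { toFun := fun x => ⟨⟨x.1, h3 x.2⟩, (h2 _).2 x.2⟩
          invFun := fun y => ⟨y.1.1, (h2 _).1 y.2⟩
          left_inv := fun x => rfl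
          right_inv := fun y => rfl
          map_mul' := fun x y => rfl }
  have h4 := key k le_rfl
  rw [Nat.sub_self, h0] at h4
  exact howie_equiv Subgroup.topEquiv h4

end Vale.Agent.Results.P174.TorsionFreeAbelianExtensions
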